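import Mathlib.CategoryTheory.Abelian.Projective.Dimension
import Mathlib.Algebra.Category.ModuleCat.Projective
import Mathlib.Algebra.Category.ModuleCat.EnoughInjectives
import Mathlib.Algebra.Homology.ShortComplex.ModuleCat
import Mathlib.RingTheory.Finiteness.Basic

/-!
Row 178 (S0268): the abstract homological part.

Everything is stated at the level of modules (`Function.Exact`, `Function.Injective`, ...).
`PDLT R M n` means "projective dimension of `M` is `< n`".
* `pd_step` : if `M'` has projective dimension exactly `e ≥ 4` then `M` has exactly `e + 2`.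
* `pd_base` : a length 4 resolution whose last map is not split mono has length exactly 4.
* `pd_conclusion` : modules of unbounded finite projective dimension.
-/

set_option autoImplicit false

namespace Crest.Agent.R178

open CategoryTheory

section

variable (R : Type) [Ring R]

/-- `M` has projective dimension `< n` over `R`. -/
def PDLT (M : Type) [AddCommGroup M] [Module R M] (n : ℕ) : Prop :=
  HasProjectiveDimensionLT (ModuleCat.of R M) n

variable {R}

variable {A B C : Type} [AddCommGroup A] [Module R A] [AddCommGroup B] [Module R B]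
  [AddCommGroup C] [Module R C]

lemma PDLT.mono {n m : ℕ} (h : PDLT R A n) (hnm : n ≤ m) : PDLT R A m :=
  have : HasProjectiveDimensionLT (ModuleCat.of R A) n := h
  hasProjectiveDimensionLT_of_ge _ n m hnm

lemma PDLT.of_projective [Module.Projective R A] : PDLT R A 1 := by
  have : Projective (ModuleCat.of R A) :=
    (IsProjective.iff_projective (R := R) A).1 inferInstance
  exact projective_iff_hasProjectiveDimensionLT_one.1 this


/-- The short exact sequence attached to module data. -/
lemma shortExact_of {f : A →ₗ[R] B} {g : B →ₗ[R] C} (hf : Function.Injective f)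
    (hfg : Function.Exact f g) (hg : Function.Surjective g) :
    (ShortComplex.moduleCatMk f g (hfg.linearMap_comp_eq_zero)).ShortExact :=
  ModuleCat.shortComplex_shortExact _ hfg hf hg

lemma PDLT.mid {f : A →ₗ[R] B} {g : B →ₗ[R] C} (hf : Function.Injective f)
    (hfg : Function.Exact f g) (hg : Function.Surjective g) {n : ℕ}
    (h1 : PDLT R A n) (h3 : PDLT R C n) : PDLT R B n :=
  (shortExact_of hf hfg hg).hasProjectiveDimensionLT_X₂ n h1 h3

lemma PDLT.right {f : A →ₗ[R] B} {g : B →ₗ[R] C} (hf : Function.Injective f)
    (hfg : Function.Exact f g) (hg : Function.Surjective g) {n : ℕ}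
    (h1 : PDLT R A n) (h2 : PDLT R B (n + 1)) : PDLT R C (n + 1) :=
  (shortExact_of hf hfg hg).hasProjectiveDimensionLT_X₃ n h1 h2

lemma PDLT.left {f : A →ₗ[R] B} {g : B →ₗ[R] C} (hf : Function.Injective f)
    (hfg : Function.Exact f g) (hg : Function.Surjective g) {n : ℕ}
    (h2 : PDLT R B n) (h3 : PDLT R C (n + 1)) : PDLT R A n :=
  (shortExact_of hf hfg hg).hasProjectiveDimensionLT_X₁ n h2 h3


lemma PDLT.of_equiv (e : A ≃ₗ[R] B) {n : ℕ} (h : PDLT R A n) : PDLT R B n := by
  have : HasProjectiveDimensionLT (ModuleCat.of R A) n := h
  exact hasProjectiveDimensionLT_of_iso e.toModuleIso n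




end

section Step

variable {R : Type} [Ring R]
variable {Q0 Q1 Q2 Q3 Q4 : Type} [AddCommGroup Q0] [Module R Q0] [AddCommGroup Q1] [Module R Q1]
  [AddCommGroup Q2] [Module R Q2] [AddCommGroup Q3] [Module R Q3] [AddCommGroup Q4] [Module R Q4]
  [Module.Projective R Q0] [Module.Projective R Q1] [Module.Projective R Q2]
  [Module.Projective R Q3] [Module.Projective R Q4]







end Step

end Crest.Agent.R178
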