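import Crest.Agent.R178.Homol
import Mathlib.Algebra.Category.ModuleCat.Ext.HasExt

/-!
Row 178 (S0268): the abstract homological part for the "two block" version.

* `pd_step2` : from `0 → M' → I → G → M' → 0` and `0 → G → I' → M → 0` with `pd I, pd I' ≤ 4`
  and `pd M' = e ≥ 5` one gets `pd M = e + 2`.
* `EV R X S` : all `Ext^i(X,S)` vanish; `ENZ R X S j` : `Ext^j(X,S) ≠ 0`.
-/

set_option autoImplicit false

namespace Crest.Agent.R178

open CategoryTheory Abelian

section General

universe v u w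
variable {𝒞 : Type u} [Category.{v} 𝒞] [Abelian 𝒞] [HasExt.{w} 𝒞]


lemma ext_left {X : ShortComplex 𝒞} (hX : X.ShortExact) (Y : 𝒞) (i : ℕ)
    (h2 : ∀ z : Ext X.X₂ Y i, z = 0) (h3 : ∀ z : Ext X.X₃ Y (i + 1), z = 0)
    (z : Ext X.X₁ Y i) : z = 0 := by
  obtain ⟨x, rfl⟩ := Ext.contravariant_sequence_exact₁ hX _ z (add_comm 1 i) (h3 _)
  rw [h2 x, Ext.comp_zero]

lemma ext_right {X : ShortComplex 𝒞} (hX : X.ShortExact) (Y : 𝒞) (i : ℕ)
    (h1 : ∀ z : Ext X.X₁ Y i, z = 0) (h2 : ∀ z : Ext X.X₂ Y (i + 1), z = 0)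
    (z : Ext X.X₃ Y (i + 1)) : z = 0 := by
  obtain ⟨x, rfl⟩ := Ext.contravariant_sequence_exact₃ hX _ z (h2 _) (add_comm 1 i)
  rw [h1 x, Ext.comp_zero]

lemma ext_right_zero {X : ShortComplex 𝒞} (hX : X.ShortExact) (Y : 𝒞)
    (h2 : ∀ z : Ext X.X₂ Y 0, z = 0) (z : Ext X.X₃ Y 0) : z = 0 := by
  have := hX.epi_g
  obtain ⟨φ, rfl⟩ := Ext.homEquiv₀.symm.surjective z
  have h4 : Ext.mk₀ (X.g ≫ φ) = 0 := h2 _
  have h5 : X.g ≫ φ = 0 := by
    apply Ext.homEquiv₀.symm.injective
    simpa using h4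
  have h6 : φ = 0 := (cancel_epi X.g).1 (by rw [h5, Limits.comp_zero])
  rw [h6]
  exact Ext.mk₀_zero _ _

lemma subsingleton_of_zero {X Y : 𝒞} {i : ℕ} (h : ∀ z : Ext X Y i, z = 0) :
    Subsingleton (Ext X Y i) := ⟨fun x y => by rw [h x, h y]⟩

lemma zero_of_subsingleton {X Y : 𝒞} {i : ℕ} (h : Subsingleton (Ext X Y i)) (z : Ext X Y i) :
    z = 0 := Subsingleton.elim _ _

end General

section

variable {R : Type} [Ring R]
variable {A B C : Type} [AddCommGroup A] [Module R A] [AddCommGroup B] [Module R B]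
  [AddCommGroup C] [Module R C]

/-- The inductive step for the two block version. -/
theorem pd_step2 {M' I G I' M : Type} [AddCommGroup M'] [Module R M'] [AddCommGroup I] [Module R I]
    [AddCommGroup G] [Module R G] [AddCommGroup I'] [Module R I'] [AddCommGroup M] [Module R M]
    {i : M' →ₗ[R] I} {f : I →ₗ[R] G} {p : G →ₗ[R] M'}
    (hi : Function.Injective i) (hif : Function.Exact i f) (hfp : Function.Exact f p)
    (hp : Function.Surjective p)
    {j : G →ₗ[R] I'} {q : I' →ₗ[R] M}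
    (hj : Function.Injective j) (hjq : Function.Exact j q) (hq : Function.Surjective q)
    {c : ℕ} (hI : PDLT R I c) (hI' : PDLT R I' c) {e : ℕ} (he : c ≤ e)
    (hM : PDLT R M' (e + 1)) (hM' : ¬ PDLT R M' e) :
    PDLT R M (e + 3) ∧ ¬ PDLT R M (e + 2) := by
  -- `K = range f`
  have hex1 : Function.Exact i f.rangeRestrict := by
    intro x
    rw [← hif x]
    simp only [LinearMap.rangeRestrict, ← Subtype.coe_inj]
    simp
  have hex2 : Function.Exact (LinearMap.range f).subtype p := by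
    intro x
    rw [hfp x]
    constructor
    · rintro ⟨y, rfl⟩
      exact ⟨⟨f y, y, rfl⟩, rfl⟩
    · rintro ⟨⟨_, y, rfl⟩, rfl⟩
      exact ⟨y, rfl⟩
  have hinj2 : Function.Injective (LinearMap.range f).subtype := Subtype.val_injective
  have hK : PDLT R (LinearMap.range f) (e + 2) :=
    PDLT.right hi hex1 f.surjective_rangeRestrict hM (hI.mono (by omega))
  have hK' : ¬ PDLT R (LinearMap.range f) (e + 1) := fun h =>
    hM' (PDLT.left hi hex1 f.surjective_rangeRestrict (hI.mono he) h)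
  have hG : PDLT R G (e + 2) := PDLT.mid hinj2 hex2 hp hK (hM.mono (by omega))
  have hG' : ¬ PDLT R G (e + 1) := fun h =>
    hK' (PDLT.left hinj2 hex2 hp h (hM.mono (by omega)))
  exact ⟨PDLT.right hj hjq hq hG (hI'.mono (by omega)),
    fun h => hG' (PDLT.left hj hjq hq (hI'.mono (by omega)) h)⟩

variable (R) in
/-- all `Ext^i_R(X, S)` vanish -/
def EV (X S : Type) [AddCommGroup X] [Module R X] [AddCommGroup S] [Module R S] : Prop :=
  ∀ i, Subsingleton (Ext (ModuleCat.of R X) (ModuleCat.of R S) i)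

variable (R) in
/-- `Ext^j_R(X, S) ≠ 0` -/
def ENZ (X S : Type) [AddCommGroup X] [Module R X] [AddCommGroup S] [Module R S] (j : ℕ) : Prop :=
  ¬ Subsingleton (Ext (ModuleCat.of R X) (ModuleCat.of R S) j)

variable {S : Type} [AddCommGroup S] [Module R S]

lemma ENZ.not_pdlt {j : ℕ} (h : ENZ R A S j) : ¬ PDLT R A j := fun h' =>
  h (HasProjectiveDimensionLT.subsingleton (hX := h') (ModuleCat.of R A) j j le_rfl
    (ModuleCat.of R S))

lemma EV.of_projective [Module.Projective R A] (h : ∀ f : A →ₗ[R] S, f = 0) : EV R A S := by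
  have : Projective (ModuleCat.of R A) := (IsProjective.iff_projective (R := R) A).1 inferInstance
  intro i
  cases i with
  | zero =>
    have h1 : Subsingleton (ModuleCat.of R A ⟶ ModuleCat.of R S) :=
      ⟨fun f g => by
        ext1
        rw [h f.hom, h g.hom]⟩
    exact Ext.homEquiv₀.subsingleton
  | succ i => exact Ext.subsingleton_of_projective _ _ i

lemma EV.of_equiv (φ : A ≃ₗ[R] B) (h : EV R A S) : EV R B S := by
  intro i
  have hA := h i
  constructor
  intro x y
  have key : ∀ z : Ext (ModuleCat.of R B) (ModuleCat.of R S) i, z = 0 := by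
    intro z
    have h1 : (Ext.mk₀ φ.toModuleIso.hom).comp z (zero_add i) = 0 := Subsingleton.elim _ _
    have h2 : z = (Ext.mk₀ φ.toModuleIso.inv).comp ((Ext.mk₀ φ.toModuleIso.hom).comp z (zero_add i))
        (zero_add i) := by
      rw [Ext.mk₀_comp_mk₀_assoc, Iso.inv_hom_id, Ext.mk₀_id_comp]
    rw [h2, h1, Ext.comp_zero]
  rw [key x, key y]

lemma ENZ.of_equiv (φ : A ≃ₗ[R] B) {j : ℕ} (h : ENZ R A S j) : ENZ R B S j := by
  intro hB
  apply h
  constructor
  intro x y
  have key : ∀ z : Ext (ModuleCat.of R A) (ModuleCat.of R S) j, z = 0 := by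
    intro z
    have h1 : (Ext.mk₀ φ.toModuleIso.inv).comp z (zero_add j) = 0 := Subsingleton.elim _ _
    have h2 : z = (Ext.mk₀ φ.toModuleIso.hom).comp ((Ext.mk₀ φ.toModuleIso.inv).comp z (zero_add j))
        (zero_add j) := by
      rw [Ext.mk₀_comp_mk₀_assoc, Iso.hom_inv_id, Ext.mk₀_id_comp]
    rw [h2, h1, Ext.comp_zero]
  rw [key x, key y]

lemma ENZ.zero (f : A →ₗ[R] S) (hf : f ≠ 0) : ENZ R A S 0 := by
  intro h
  have h1 : Subsingleton (ModuleCat.of R A ⟶ ModuleCat.of R S) :=
    Ext.homEquiv₀.symm.subsingleton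
  apply hf
  have : (ModuleCat.ofHom f : ModuleCat.of R A ⟶ ModuleCat.of R S) = ModuleCat.ofHom 0 :=
    Subsingleton.elim _ _
  exact congrArg ModuleCat.Hom.hom this


lemma EV.left {f : A →ₗ[R] B} {g : B →ₗ[R] C} (hf : Function.Injective f)
    (hfg : Function.Exact f g) (hg : Function.Surjective g)
    (h2 : EV R B S) (h3 : EV R C S) : EV R A S := fun i =>
  subsingleton_of_zero (ext_left (shortExact_of hf hfg hg) (ModuleCat.of R S) i
    (zero_of_subsingleton (h2 i)) (zero_of_subsingleton (h3 (i + 1))))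

lemma EV.right {f : A →ₗ[R] B} {g : B →ₗ[R] C} (hf : Function.Injective f)
    (hfg : Function.Exact f g) (hg : Function.Surjective g)
    (h1 : EV R A S) (h2 : EV R B S) : EV R C S := by
  intro i
  cases i with
  | zero =>
    exact subsingleton_of_zero (ext_right_zero (shortExact_of hf hfg hg) (ModuleCat.of R S)
      (zero_of_subsingleton (h2 0)))
  | succ i =>
    exact subsingleton_of_zero (ext_right (shortExact_of hf hfg hg) (ModuleCat.of R S) i
      (zero_of_subsingleton (h1 i)) (zero_of_subsingleton (h2 (i + 1))))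

/-- Dimension shifting for the nonvanishing (vanishing of `Ext^j(B,S)` suffices). -/
lemma ENZ.shift' {f : A →ₗ[R] B} {g : B →ₗ[R] C} (hf : Function.Injective f)
    (hfg : Function.Exact f g) (hg : Function.Surjective g) {j : ℕ}
    (h2 : Subsingleton (Ext (ModuleCat.of R B) (ModuleCat.of R S) j))
    (h1 : ENZ R A S j) : ENZ R C S (j + 1) := by
  intro hC
  exact h1 (subsingleton_of_zero (ext_left (shortExact_of hf hfg hg) (ModuleCat.of R S) j
    (zero_of_subsingleton h2) (zero_of_subsingleton hC)))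

/-- Dimension shifting for the nonvanishing. -/
lemma ENZ.shift {f : A →ₗ[R] B} {g : B →ₗ[R] C} (hf : Function.Injective f)
    (hfg : Function.Exact f g) (hg : Function.Surjective g)
    (h2 : EV R B S) {j : ℕ} (h1 : ENZ R A S j) : ENZ R C S (j + 1) :=
  ENZ.shift' hf hfg hg (h2 j) h1


/-- General bookkeeping: unbounded finite projective dimensions, with starting value `c`. -/
theorem pd_conclusion2 (M : ℕ → Type) [∀ n, AddCommGroup (M n)] [∀ n, Module R (M n)]
    [∀ n, Module.Finite R (M n)] {c : ℕ}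
    (h0 : PDLT R (M 0) (c + 1) ∧ ¬ PDLT R (M 0) c)
    (hs : ∀ n e, c ≤ e → PDLT R (M n) (e + 1) → ¬ PDLT R (M n) e →
      PDLT R (M (n + 1)) (e + 3) ∧ ¬ PDLT R (M (n + 1)) (e + 2)) (k : ℕ) :
    ∃ N : ModuleCat.{0} R, Module.Finite R N ∧
      ¬ CategoryTheory.HasProjectiveDimensionLT N k ∧
      ∃ n : ℕ, CategoryTheory.HasProjectiveDimensionLT N n := by
  have key : ∀ n, PDLT R (M n) (2 * n + c + 1) ∧ ¬ PDLT R (M n) (2 * n + c) := by
    intro n
    induction n with
    | zero => simpa using h0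
    | succ n ih =>
      have := hs n (2 * n + c) (by omega) ih.1 ih.2
      refine ⟨?_, ?_⟩
      · have h := this.1
        rwa [show 2 * n + c + 3 = 2 * (n + 1) + c + 1 by ring] at h
      · have h := this.2
        rwa [show 2 * n + c + 2 = 2 * (n + 1) + c by ring] at h
  refine ⟨ModuleCat.of R (M k), inferInstanceAs (Module.Finite R (M k)), fun h => ?_,
    2 * k + c + 1, (key k).1⟩
  exact (key k).2 (PDLT.mono (show PDLT R (M k) k from h) (by omega))

end

end Crest.Agent.R178
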